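/-! Proof trees and the checker for the Snaky certificates. This file uses no library beyond the core
of the language, so that the certificate modules, which only evaluate the checker, are cheap to build. -/

namespace Vale.Agent.Lib.P062

def off (a : Bool) (t k : Nat) : Nat := if a then t + k else t - k

/-- Proof trees. A tree is a list of options for Maker in a position with Maker to move:
`nil` is the empty list, `win b s a e tx ty rest` adds the option of completing the copy with
orientation `s a e` anchored at `(tx, ty)` by playing the cell `b`, and `go b child rest` adds the
option of playing `b`, after which `child` handles every reply of Breaker. -/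
inductive PT : Type
  | nil : PT
  | win (b : Nat) (s a e : Bool) (tx ty : Nat) (rest : PT) : PT
  | go (b : Nat) (child rest : PT) : PT

/-- The indices of the six cells of the copy with orientation `s a e` anchored at `(tx, ty)`. -/
def copyIdx (s a e : Bool) (tx ty : Nat) : List Nat :=
  if s then
    [tx + 32 * ty, tx + 32 * off e ty 1, tx + 32 * off e ty 2, tx + 32 * off e ty 3,
      off a tx 1 + 32 * off e ty 3, off a tx 1 + 32 * off e ty 4]
  else
    [tx + 32 * ty, off a tx 1 + 32 * ty, off a tx 2 + 32 * ty, off a tx 3 + 32 * ty,
      off a tx 3 + 32 * off e ty 1, off a tx 4 + 32 * off e ty 1]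

def copyOK (C b : Nat) (s a e : Bool) (tx ty : Nat) : Bool :=
  Nat.ble 4 tx && Nat.ble tx 27 && Nat.ble 4 ty && Nat.ble ty 27 &&
    (copyIdx s a e tx ty).all (fun j => C.testBit j || Nat.beq j b)

def interZ : Option Nat → Nat → Nat
  | none, Z => Z
  | some m, Z => m &&& Z

/-- The checker. `chk C pt = some (u, i)` means: in the position where Maker owns the cells of the mask
`C`, the options of `pt` only rely on the cells of the mask `u` being free of Breaker stones, and they
win for Maker against every last Breaker stone outside the mask `i` (no stone at all if `i = none`). -/
def chk : Nat → PT → Option (Nat × Option Nat)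
  | _, PT.nil => some (0, none)
  | C, PT.win b s a e tx ty rest =>
    if Nat.blt b 1024 && !C.testBit b && copyOK C b s a e tx ty then
      match chk C rest with
      | some (u, i) => some (u ||| 2 ^ b, some (interZ i (2 ^ b)))
      | none => none
    else none
  | C, PT.go b child rest =>
    if Nat.blt b 1024 && !C.testBit b then
      match chk (C ||| 2 ^ b) child with
      | some (u', some 0) =>
        match chk C rest with
        | some (u, i) => some (u ||| (u' ||| 2 ^ b), some (interZ i (u' ||| 2 ^ b)))
        | none => none
      | _ => none
    else none

/-- Boolean form of the statement `chk C pt = some (u, some m)`. -/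
def chkB (C : Nat) (pt : PT) (u m : Nat) : Bool :=
  match chk C pt with
  | some (u', some m') => Nat.beq u' u && Nat.beq m' m
  | _ => false

/-! Short names for the constructors of proof trees, used to write the certificates compactly:
`w<o>`/`v<o>` is `PT.win` with orientation bits `o = s + 2 a + 4 e` (`v`: last option), `g`/`h` is `PT.go`
(`h`: last option). -/
def w0 (b tx ty : Nat) (r : PT) : PT := PT.win b false false false tx ty r
def w1 (b tx ty : Nat) (r : PT) : PT := PT.win b true false false tx ty r
def w2 (b tx ty : Nat) (r : PT) : PT := PT.win b false true false tx ty r
def w3 (b tx ty : Nat) (r : PT) : PT := PT.win b true true false tx ty r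
def w4 (b tx ty : Nat) (r : PT) : PT := PT.win b false false true tx ty r
def w5 (b tx ty : Nat) (r : PT) : PT := PT.win b true false true tx ty r
def w6 (b tx ty : Nat) (r : PT) : PT := PT.win b false true true tx ty r
def w7 (b tx ty : Nat) (r : PT) : PT := PT.win b true true true tx ty r
def v0 (b tx ty : Nat) : PT := PT.win b false false false tx ty PT.nil
def v1 (b tx ty : Nat) : PT := PT.win b true false false tx ty PT.nil
def v2 (b tx ty : Nat) : PT := PT.win b false true false tx ty PT.nil
def v3 (b tx ty : Nat) : PT := PT.win b true true false tx ty PT.nil
def v4 (b tx ty : Nat) : PT := PT.win b false false true tx ty PT.nil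
def v5 (b tx ty : Nat) : PT := PT.win b true false true tx ty PT.nil
def v6 (b tx ty : Nat) : PT := PT.win b false true true tx ty PT.nil
def v7 (b tx ty : Nat) : PT := PT.win b true true true tx ty PT.nil
def g (b : Nat) (c r : PT) : PT := PT.go b c r
def h (b : Nat) (c : PT) : PT := PT.go b c PT.nil

end Vale.Agent.Lib.P062
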