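import Vale.Agent.Lib.P062.Defs
import Vale.Agent.Lib.P062.Core

namespace Vale.Agent.Lib.P062

/-- The cell with index `i` of the 32 x 32 window: `i = x + 32 y` is the cell `(x, y)`. -/
def cellOf (i : ℕ) : ℤ × ℤ := (((i % 32 : ℕ) : ℤ), ((i / 32 : ℕ) : ℤ))

/-- The set of window cells whose bit is set in the mask `C`. -/
def dec (C : ℕ) : Finset (ℤ × ℤ) :=
  ((Finset.range 1024).filter (fun i => C.testBit i = true)).image cellOf

end Vale.Agent.Lib.P062
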