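import Vale.Agent.Lib.P062.Cert

namespace Vale.Agent.Lib.P062

theorem cellOf_add (x y : ℕ) (hx : x < 32) : cellOf (x + 32 * y) = ((x : ℤ), (y : ℤ)) := by
  unfold cellOf
  have h1 : (x + 32 * y) % 32 = x := by omega
  have h2 : (x + 32 * y) / 32 = y := by omega
  rw [h1, h2]

theorem cellOf_inj {i j : ℕ} (h : cellOf i = cellOf j) : i = j := by
  unfold cellOf at h
  simp only [Prod.mk.injEq, Nat.cast_inj] at h
  omega

theorem mem_dec {C i : ℕ} (hi : i < 1024) : cellOf i ∈ dec C ↔ C.testBit i = true := by
  unfold dec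
  simp only [Finset.mem_image, Finset.mem_filter, Finset.mem_range]
  constructor
  · rintro ⟨j, ⟨_, hj⟩, hji⟩
    rw [← cellOf_inj hji]
    exact hj
  · intro h
    exact ⟨i, ⟨hi, h⟩, rfl⟩

theorem dec_or_pow {C b : ℕ} (hb : b < 1024) : dec (C ||| 2 ^ b) = insert (cellOf b) (dec C) := by
  ext x
  unfold dec
  simp only [Finset.mem_image, Finset.mem_filter, Finset.mem_range, Finset.mem_insert,
    Nat.testBit_or, Bool.or_eq_true, Nat.testBit_two_pow, decide_eq_true_eq]
  constructor
  · rintro ⟨j, ⟨hj, h | h⟩, rfl⟩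
    · exact Or.inr ⟨j, ⟨hj, h⟩, rfl⟩
    · exact Or.inl (by rw [h])
  · rintro (h | ⟨j, ⟨hj, h⟩, rfl⟩)
    · exact ⟨b, ⟨hb, Or.inr rfl⟩, h.symm⟩
    · exact ⟨j, ⟨hj, Or.inl h⟩, rfl⟩

theorem xy_mem (C b x y : ℕ) (hx : x < 32) (hy : y < 32)
    (h : (C.testBit (x + 32 * y) || Nat.beq (x + 32 * y) b) = true) :
    ((x : ℤ), (y : ℤ)) ∈ insert (cellOf b) (dec C) := by
  rw [← cellOf_add x y hx]
  rw [Bool.or_eq_true] at h
  rcases h with h | h
  · exact Finset.mem_insert_of_mem ((mem_dec (by omega)).2 h)
  · have : x + 32 * y = b := Nat.eq_of_beq_eq_true h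
    rw [this]
    exact Finset.mem_insert_self _ _

theorem xy_mem' (C b x y : ℕ) (X Y : ℤ) (hx : x < 32) (hy : y < 32) (hX : X = x) (hY : Y = y)
    (h : (C.testBit (x + 32 * y) || Nat.beq (x + 32 * y) b) = true) :
    (X, Y) ∈ insert (cellOf b) (dec C) := by
  rw [hX, hY]
  exact xy_mem C b x y hx hy h

/-- Breaker's stones avoid the cells of the mask `u`. -/
def Avoid (u : ℕ) (B : Finset (ℤ × ℤ)) : Prop := ∀ j, j < 1024 → u.testBit j = true → cellOf j ∉ B

/-- The cell `d` is not a cell of the mask `m`. -/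
def OutM (m : ℕ) (d : ℤ × ℤ) : Prop := ∀ j, j < 1024 → cellOf j = d → m.testBit j = false

def Out : Option ℕ → ℤ × ℤ → Prop
  | none, _ => False
  | some m, d => OutM m d

theorem avoid_mono {u v : ℕ} {B : Finset (ℤ × ℤ)} (h : Avoid (u ||| v) B) : Avoid u B ∧ Avoid v B := by
  constructor
  · intro j hj hb
    exact h j hj (by rw [Nat.testBit_or, hb, Bool.true_or])
  · intro j hj hb
    exact h j hj (by rw [Nat.testBit_or, hb, Bool.or_true])

theorem out_interZ {i : Option ℕ} {Z : ℕ} {d : ℤ × ℤ} (h : Out (some (interZ i Z)) d) {j : ℕ}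
    (hj : j < 1024) (hjd : cellOf j = d) (hZ : Z.testBit j = true) : Out i d := by
  cases i with
  | none =>
    have h1 : Z.testBit j = false := h j hj hjd
    rw [hZ] at h1
    exact absurd h1 (by simp)
  | some m =>
    intro j' _ hj'd
    have hjj : j' = j := cellOf_inj (hj'd.trans hjd.symm)
    have h1 : (m &&& Z).testBit j = false := h j hj hjd
    rw [Nat.testBit_and, hZ, Bool.and_true] at h1
    rw [hjj]
    exact h1

theorem exists_reply (S T : Finset (ℤ × ℤ)) : ∃ d, d ∈ (Set.univ : Set (ℤ × ℤ)) ∧ d ∉ S ∧ d ∉ T := by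
  obtain ⟨d, hd⟩ := Infinite.exists_notMem_finset (S ∪ T)
  rw [Finset.mem_union, not_or] at hd
  exact ⟨d, Set.mem_univ _, hd.1, hd.2⟩

def sg (a : Bool) : ℤ := if a then 1 else -1

theorem sg_pm (a : Bool) : sg a = 1 ∨ sg a = -1 := by
  cases a
  · right; rfl
  · left; rfl

theorem off_cast (a : Bool) (t k : ℕ) (hk : k ≤ t) : ((off a t k : ℕ) : ℤ) = (t : ℤ) + sg a * (k : ℤ) := by
  cases a
  · simp only [off, sg, Bool.false_eq_true, if_false]
    rw [Nat.cast_sub hk]
    ring
  · simp only [off, sg, if_true]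
    push_cast
    ring

theorem off_lt (a : Bool) (t k : ℕ) (ht : t ≤ 27) (hk : k ≤ 4) : off a t k < 32 := by
  cases a
  · simp only [off, Bool.false_eq_true, if_false]
    omega
  · simp only [off, if_true]
    omega

theorem copyOK_sound {C b : ℕ} {s a e : Bool} {tx ty : ℕ} (h : copyOK C b s a e tx ty = true) :
    ∃ W, IsCopy W ∧ (∀ x ∈ W, x ∈ (Set.univ : Set (ℤ × ℤ))) ∧ W ⊆ insert (cellOf b) (dec C) := by
  unfold copyOK at h
  simp only [Bool.and_eq_true, Nat.ble_eq, List.all_eq_true] at h
  obtain ⟨⟨⟨⟨h1, h2⟩, h3⟩, h4⟩, h5⟩ := h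
  refine ⟨snaky.image (place s (sg a) (sg e) ((tx : ℤ), (ty : ℤ))),
    ⟨s, sg a, sg e, _, sg_pm a, sg_pm e, rfl⟩, fun _ _ => Set.mem_univ _, ?_⟩
  intro p hp
  rw [Finset.mem_image] at hp
  obtain ⟨c, hc, rfl⟩ := hp
  have hall : ∀ (x y : ℕ) (X Y : ℤ), x < 32 → y < 32 → X = (x : ℤ) → Y = (y : ℤ) →
      (x + 32 * y) ∈ copyIdx s a e tx ty → (X, Y) ∈ insert (cellOf b) (dec C) :=
    fun x y X Y hx hy hX hY hm => xy_mem' C b x y X Y hx hy hX hY (h5 _ hm)
  have ca1 := off_cast a tx 1 (by omega)
  have ca2 := off_cast a tx 2 (by omega)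
  have ca3 := off_cast a tx 3 (by omega)
  have ca4 := off_cast a tx 4 (by omega)
  have ce1 := off_cast e ty 1 (by omega)
  have ce2 := off_cast e ty 2 (by omega)
  have ce3 := off_cast e ty 3 (by omega)
  have ce4 := off_cast e ty 4 (by omega)
  have la1 := off_lt a tx 1 h2 (by omega)
  have la2 := off_lt a tx 2 h2 (by omega)
  have la3 := off_lt a tx 3 h2 (by omega)
  have la4 := off_lt a tx 4 h2 (by omega)
  have le1 := off_lt e ty 1 h4 (by omega)
  have le2 := off_lt e ty 2 h4 (by omega)
  have le3 := off_lt e ty 3 h4 (by omega)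
  have le4 := off_lt e ty 4 h4 (by omega)
  have ltx : tx < 32 := by omega
  have lty : ty < 32 := by omega
  unfold snaky at hc
  simp only [Finset.mem_insert, Finset.mem_singleton] at hc
  cases s
  · rcases hc with rfl | rfl | rfl | rfl | rfl | rfl
    · exact hall tx ty _ _ ltx lty (by simp) (by simp) (by simp [copyIdx])
    · exact hall (off a tx 1) ty _ _ la1 lty (by rw [ca1]; simp) (by simp)
        (by simp [copyIdx])
    · exact hall (off a tx 2) ty _ _ la2 lty (by rw [ca2]; simp) (by simp)
        (by simp [copyIdx])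
    · exact hall (off a tx 3) ty _ _ la3 lty (by rw [ca3]; simp) (by simp)
        (by simp [copyIdx])
    · exact hall (off a tx 3) (off e ty 1) _ _ la3 le1 (by rw [ca3]; simp)
        (by rw [ce1]; simp) (by simp [copyIdx])
    · exact hall (off a tx 4) (off e ty 1) _ _ la4 le1 (by rw [ca4]; simp)
        (by rw [ce1]; simp) (by simp [copyIdx])
  · rcases hc with rfl | rfl | rfl | rfl | rfl | rfl
    · exact hall tx ty _ _ ltx lty (by simp) (by simp) (by simp [copyIdx])
    · exact hall tx (off e ty 1) _ _ ltx le1 (by simp) (by rw [ce1]; simp)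
        (by simp [copyIdx])
    · exact hall tx (off e ty 2) _ _ ltx le2 (by simp) (by rw [ce2]; simp)
        (by simp [copyIdx])
    · exact hall tx (off e ty 3) _ _ ltx le3 (by simp) (by rw [ce3]; simp)
        (by simp [copyIdx])
    · exact hall (off a tx 1) (off e ty 3) _ _ la1 le3 (by rw [ca1]; simp)
        (by rw [ce3]; simp) (by simp [copyIdx])
    · exact hall (off a tx 1) (off e ty 4) _ _ la1 le4 (by rw [ca1]; simp)
        (by rw [ce4]; simp) (by simp [copyIdx])

theorem outM_zero (d : ℤ × ℤ) : OutM 0 d := fun j _ _ => Nat.zero_testBit j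

theorem chk_sound : ∀ (pt : PT) (C u : ℕ) (i : Option ℕ), chk C pt = some (u, i) →
    ∀ (B : Finset (ℤ × ℤ)), Avoid u B → (∀ x ∈ dec C, x ∉ B) → ∀ d, d ∉ dec C → d ∉ B → Out i d →
      MakerWins Set.univ (dec C) (insert d B) := by
  intro pt
  induction pt with
  | nil =>
    intro C u i h B _ _ d _ _ hout
    rw [chk] at h
    simp only [Option.some.injEq, Prod.mk.injEq] at h
    rw [← h.2] at hout
    exact absurd hout (by simp [Out])
  | win b s a e tx ty rest ih =>
    intro C u i h B hav hdis d hdC hdB hout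
    rw [chk] at h
    split at h
    · rename_i hcond
      simp only [Bool.and_eq_true, Nat.blt_eq, Bool.not_eq_true'] at hcond
      obtain ⟨⟨hb, hCb⟩, hcopy⟩ := hcond
      cases hr : chk C rest with
      | none => rw [hr] at h; exact absurd h (by simp)
      | some p =>
        obtain ⟨u0, i0⟩ := p
        rw [hr] at h
        simp only [Option.some.injEq, Prod.mk.injEq] at h
        obtain ⟨hu, hi⟩ := h
        subst hu
        subst hi
        obtain ⟨hav0, havb⟩ := avoid_mono hav
        by_cases hdb : cellOf b = d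
        · exact ih C u0 i0 hr B hav0 hdis d hdC hdB
            (out_interZ hout hb hdb (by rw [Nat.testBit_two_pow]; simp))
        · refine MakerWins.win _ _ (cellOf b) (Set.mem_univ _) ?_ ?_ (copyOK_sound hcopy)
          · rw [mem_dec hb, hCb]
            simp
          · rw [Finset.mem_insert, not_or]
            exact ⟨hdb, havb b hb (by rw [Nat.testBit_two_pow]; simp)⟩
    · exact absurd h (by simp)
  | go b child rest ihc ihr =>
    intro C u i h B hav hdis d hdC hdB hout
    rw [chk] at h
    split at h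
    · rename_i hcond
      simp only [Bool.and_eq_true, Nat.blt_eq, Bool.not_eq_true'] at hcond
      obtain ⟨hb, hCb⟩ := hcond
      split at h
      · rename_i u' hc
        cases hr : chk C rest with
        | none => rw [hr] at h; exact absurd h (by simp)
        | some p =>
          obtain ⟨u0, i0⟩ := p
          rw [hr] at h
          simp only [Option.some.injEq, Prod.mk.injEq] at h
          obtain ⟨hu, hi⟩ := h
          subst hu
          subst hi
          obtain ⟨hav0, havz⟩ := avoid_mono hav
          obtain ⟨havu', havb⟩ := avoid_mono havz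
          by_cases hz : ∃ j, j < 1024 ∧ cellOf j = d ∧ (u' ||| 2 ^ b).testBit j = true
          · obtain ⟨j, hj, hjd, hbit⟩ := hz
            exact ihr C u0 i0 hr B hav0 hdis d hdC hdB (out_interZ hout hj hjd hbit)
          · have hbd : cellOf b ≠ d := by
              intro hbd
              exact hz ⟨b, hb, hbd, by rw [Nat.testBit_or, Nat.testBit_two_pow]; simp⟩
            have hbC : cellOf b ∉ dec C := by
              rw [mem_dec hb, hCb]
              simp
            have hbB : cellOf b ∉ insert d B := by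
              rw [Finset.mem_insert, not_or]
              exact ⟨hbd, havb b hb (by rw [Nat.testBit_two_pow]; simp)⟩
            refine MakerWins.step _ _ (cellOf b) (Set.mem_univ _) hbC hbB (exists_reply _ _) ?_
            intro d' _ hd'1 hd'2
            rw [← dec_or_pow hb] at hd'1 ⊢
            refine ihc (C ||| 2 ^ b) u' (some 0) hc (insert d B) ?_ ?_ d' hd'1 hd'2 (outM_zero d')
            · intro j hj hbit
              rw [Finset.mem_insert, not_or]
              refine ⟨?_, havu' j hj hbit⟩
              intro hjd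
              exact hz ⟨j, hj, hjd, by rw [Nat.testBit_or, hbit, Bool.true_or]⟩
            · intro x hx
              rw [dec_or_pow hb, Finset.mem_insert] at hx
              rcases hx with rfl | hx
              · exact hbB
              · rw [Finset.mem_insert, not_or]
                refine ⟨?_, hdis x hx⟩
                rintro rfl
                exact hdC hx
      · exact absurd h (by simp)
    · exact absurd h (by simp)

end Vale.Agent.Lib.P062
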