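import Vale.Agent.Lib.P062.Top

namespace Vale.Agent.Lib.P062

/-- `Ok C u i`: in the position where Maker owns the cells of the mask `C`, Maker wins against every
Breaker set that avoids the mask `u` and whose last stone `d` lies outside the mask `i`
(this is the conclusion of `chk_sound`). -/
def Ok (C u : ℕ) (i : Option ℕ) : Prop :=
  ∀ (B : Finset (ℤ × ℤ)), Avoid u B → (∀ x ∈ dec C, x ∉ B) → ∀ d, d ∉ dec C → d ∉ B → Out i d →
    MakerWins Set.univ (dec C) (insert d B)

theorem ok_of_chkB {C : ℕ} {pt : PT} {u m : ℕ} (h : chkB C pt u m = true) : Ok C u (some m) :=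
  chk_sound pt C u (some m) (chk_of_chkB h)

theorem ok_union {C u1 u2 m1 m2 : ℕ} (h1 : Ok C u1 (some m1)) (h2 : Ok C u2 (some m2)) :
    Ok C (u1 ||| u2) (some (m1 &&& m2)) := by
  intro B hav hdis d hdC hdB hout
  obtain ⟨hav1, hav2⟩ := avoid_mono hav
  by_cases hw : ∃ j, j < 1024 ∧ cellOf j = d
  · obtain ⟨j, hj, hjd⟩ := hw
    have hbit : (m1 &&& m2).testBit j = false := hout j hj hjd
    rw [Nat.testBit_and] at hbit
    cases hm1 : m1.testBit j
    · refine h1 B hav1 hdis d hdC hdB ?_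
      intro j' _ hj'd
      have : j' = j := cellOf_inj (hj'd.trans hjd.symm)
      rw [this]
      exact hm1
    · rw [hm1, Bool.true_and] at hbit
      refine h2 B hav2 hdis d hdC hdB ?_
      intro j' _ hj'd
      have : j' = j := cellOf_inj (hj'd.trans hjd.symm)
      rw [this]
      exact hbit
  · refine h1 B hav1 hdis d hdC hdB ?_
    intro j hj hjd
    exact absurd ⟨j, hj, hjd⟩ hw

theorem ok_go {C b u' : ℕ} (hb : b < 1024) (hCb : C.testBit b = false)
    (h : Ok (C ||| 2 ^ b) u' (some 0)) : Ok C (u' ||| 2 ^ b) (some (u' ||| 2 ^ b)) := by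
  intro B hav hdis d hdC hdB hout
  obtain ⟨havu', havb⟩ := avoid_mono hav
  have hz : ¬ ∃ j, j < 1024 ∧ cellOf j = d ∧ (u' ||| 2 ^ b).testBit j = true := by
    rintro ⟨j, hj, hjd, hbit⟩
    have := hout j hj hjd
    rw [hbit] at this
    exact absurd this (by simp)
  have hbd : cellOf b ≠ d := by
    intro hbd
    exact hz ⟨b, hb, hbd, by rw [Nat.testBit_or, Nat.testBit_two_pow]; simp⟩
  have hbC : cellOf b ∉ dec C := by
    rw [mem_dec hb, hCb]
    simp
  have hbB : cellOf b ∉ insert d B := by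
    rw [Finset.mem_insert, not_or]
    exact ⟨hbd, havb b hb (by rw [Nat.testBit_two_pow]; simp)⟩
  refine MakerWins.step _ _ (cellOf b) (Set.mem_univ _) hbC hbB (exists_reply _ _) ?_
  intro d' _ hd'1 hd'2
  rw [← dec_or_pow hb] at hd'1 ⊢
  refine h (insert d B) ?_ ?_ d' hd'1 hd'2 (outM_zero d')
  · intro j hj hbit
    rw [Finset.mem_insert, not_or]
    refine ⟨?_, havu' j hj hbit⟩
    intro hjd
    exact hz ⟨j, hj, hjd, by rw [Nat.testBit_or, hbit, Bool.true_or]⟩
  · intro x hx
    rw [dec_or_pow hb, Finset.mem_insert] at hx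
    rcases hx with rfl | hx
    · exact hbB
    · rw [Finset.mem_insert, not_or]
      refine ⟨?_, hdis x hx⟩
      rintro rfl
      exact hdC hx

/-- Combination of a list of verified option groups `(u, m)` of one position. -/
theorem ok_list {C : ℕ} (parts : List (ℕ × ℕ)) :
    ∀ (u0 m0 : ℕ), Ok C u0 (some m0) → (∀ p ∈ parts, Ok C p.1 (some p.2)) →
      Ok C (parts.foldl (fun a p => a ||| p.1) u0) (some (parts.foldl (fun a p => a &&& p.2) m0)) := by
  induction parts with
  | nil => intro u0 m0 h0 _; exact h0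
  | cons p l ih =>
    intro u0 m0 h0 h
    rw [List.foldl_cons, List.foldl_cons]
    exact ih _ _ (ok_union h0 (h p List.mem_cons_self)) (fun q hq => h q (List.mem_cons_of_mem _ hq))

theorem ok_cast {C u m u' m' : ℕ} (h : Ok C u (some m)) (hu : u = u') (hm : m = m') :
    Ok C u' (some m') := by
  subst hu
  subst hm
  exact h

theorem good_of_ok {u m : ℕ} (h : Ok (2 ^ 528) u (some m)) : Good m := by
  intro d hd hout
  have h1 : d ∉ dec (2 ^ 528) := by
    rw [dec_A, Finset.mem_singleton]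
    exact hd
  have := h ∅ (fun _ _ _ => Finset.notMem_empty _) (fun _ _ => Finset.notMem_empty _) d h1
    (Finset.notMem_empty _) hout
  rw [dec_A] at this
  exact this

end Vale.Agent.Lib.P062

namespace Vale.Agent.Lib.P062

/-- `ok_go` with the masks given explicitly; the side conditions are one Boolean computation. -/
theorem ok_go' (C b u' C' U : ℕ)
    (hside : (Nat.blt b 1024 && !C.testBit b && Nat.beq (C ||| 2 ^ b) C' && Nat.beq (u' ||| 2 ^ b) U) = true)
    (h : Ok C' u' (some 0)) : Ok C U (some U) := by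
  simp only [Bool.and_eq_true, Nat.blt_eq, Bool.not_eq_true'] at hside
  obtain ⟨⟨⟨hb, hCb⟩, hC'⟩, hU⟩ := hside
  have hC'' := Nat.eq_of_beq_eq_true hC'
  have hU' := Nat.eq_of_beq_eq_true hU
  subst hC''
  subst hU'
  exact ok_go hb hCb h

/-- `ok_list` with the resulting masks given explicitly. -/
theorem ok_list' {C : ℕ} (parts : List (ℕ × ℕ)) (u0 m0 U M : ℕ) (h0 : Ok C u0 (some m0))
    (h : ∀ p ∈ parts, Ok C p.1 (some p.2))
    (hside : (Nat.beq (parts.foldl (fun a p => a ||| p.1) u0) U &&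
      Nat.beq (parts.foldl (fun a p => a &&& p.2) m0) M) = true) : Ok C U (some M) := by
  rw [Bool.and_eq_true] at hside
  exact ok_cast (ok_list parts u0 m0 h0 h) (Nat.eq_of_beq_eq_true hside.1) (Nat.eq_of_beq_eq_true hside.2)

theorem all_nil {C : ℕ} : ∀ p ∈ ([] : List (ℕ × ℕ)), Ok C p.1 (some p.2) :=
  fun _ h => absurd h List.not_mem_nil

theorem all_cons {C u m : ℕ} {l : List (ℕ × ℕ)} (h : Ok C u (some m))
    (hl : ∀ p ∈ l, Ok C p.1 (some p.2)) : ∀ p ∈ (u, m) :: l, Ok C p.1 (some p.2) := by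
  intro p hp
  rw [List.mem_cons] at hp
  rcases hp with rfl | hp
  · exact h
  · exact hl p hp

theorem goods_nil : ∀ m ∈ ([] : List ℕ), Good m :=
  fun _ h => absurd h List.not_mem_nil

theorem goods_cons {m : ℕ} {l : List ℕ} (h : Good m) (hl : ∀ x ∈ l, Good x) : ∀ x ∈ m :: l, Good x := by
  intro x hx
  rw [List.mem_cons] at hx
  rcases hx with rfl | hx
  · exact h
  · exact hl x hx

end Vale.Agent.Lib.P062

namespace Vale.Agent.Lib.P062

theorem good_of_ok' {C u m : ℕ} (hC : Nat.beq C (2 ^ 528) = true) (h : Ok C u (some m)) : Good m := by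
  have hC' : C = 2 ^ 528 := Nat.eq_of_beq_eq_true hC
  rw [hC'] at h
  exact good_of_ok h

end Vale.Agent.Lib.P062
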