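import Mathlib

namespace Vale.Agent.Lib.P062

/-- The hexomino Snaky, as a set of cells of the square grid. -/
def snaky : Finset (ℤ × ℤ) := {(0, 0), (1, 0), (2, 0), (3, 0), (3, 1), (4, 1)}

/-- The translation by `t` composed with one of the eight signed permutation matrices:
`(x, y) ↦ t + (a x, b y)` if `s = false` and `(x, y) ↦ t + (a y, b x)` if `s = true`, where `a, b = ±1`. -/
def place (s : Bool) (a b : ℤ) (t c : ℤ × ℤ) : ℤ × ℤ :=
  if s then (t.1 + a * c.2, t.2 + b * c.1) else (t.1 + a * c.1, t.2 + b * c.2)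

/-- `W` is an allowed copy of Snaky. -/
def IsCopy (W : Finset (ℤ × ℤ)) : Prop :=
  ∃ (s : Bool) (a b : ℤ) (t : ℤ × ℤ), (a = 1 ∨ a = -1) ∧ (b = 1 ∨ b = -1) ∧
    W = snaky.image (place s a b t)

/-- `MakerWins Bd M B`: on the board `Bd`, in the position where Maker owns the cells `M`, Breaker owns the
cells `B` and Maker is to move, Maker can force a win. Either (`win`) Maker has a legal move `c` completing
an allowed copy that lies in the board, or (`step`) Maker has a legal move `c` after which Breaker has a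
legal reply and Maker can force a win after every legal reply `d` of Breaker. Being an inductive predicate,
it holds exactly when Maker can force a win after finitely many turns against every Breaker play. -/
inductive MakerWins (Bd : Set (ℤ × ℤ)) : Finset (ℤ × ℤ) → Finset (ℤ × ℤ) → Prop
  | win (M B : Finset (ℤ × ℤ)) (c : ℤ × ℤ) :
      c ∈ Bd → c ∉ M → c ∉ B →
      (∃ W, IsCopy W ∧ (∀ x ∈ W, x ∈ Bd) ∧ W ⊆ insert c M) →
      MakerWins Bd M B
  | step (M B : Finset (ℤ × ℤ)) (c : ℤ × ℤ) :
      c ∈ Bd → c ∉ M → c ∉ B →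
      (∃ d, d ∈ Bd ∧ d ∉ insert c M ∧ d ∉ B) →
      (∀ d, d ∈ Bd → d ∉ insert c M → d ∉ B → MakerWins Bd (insert c M) (insert d B)) →
      MakerWins Bd M B

/-- The positions `(M, B)` with Maker to move that can arise on the board `Bd` from the empty board
when Breaker answers each Maker move `c`, made in a position `(M, B)`, by the cell `σ M B c`. -/
inductive Reach (Bd : Set (ℤ × ℤ)) (σ : Finset (ℤ × ℤ) → Finset (ℤ × ℤ) → ℤ × ℤ → ℤ × ℤ) :
    Finset (ℤ × ℤ) → Finset (ℤ × ℤ) → Prop
  | start : Reach Bd σ ∅ ∅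
  | move (M B : Finset (ℤ × ℤ)) (c : ℤ × ℤ) :
      Reach Bd σ M B → c ∈ Bd → c ∉ M → c ∉ B → Reach Bd σ (insert c M) (insert (σ M B c) B)

/-- `σ` is a Breaker strategy on the board `Bd` that prevents Maker from ever owning an allowed copy:
in every position that can arise and for every legal Maker move `c`, the answer `σ M B c` is a legal
move and Maker's cells contain no allowed copy lying in the board. -/
def BreakerSafe (Bd : Set (ℤ × ℤ)) (σ : Finset (ℤ × ℤ) → Finset (ℤ × ℤ) → ℤ × ℤ → ℤ × ℤ) : Prop :=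
  ∀ M B, Reach Bd σ M B → ∀ c, c ∈ Bd → c ∉ M → c ∉ B →
    (σ M B c ∈ Bd ∧ σ M B c ∉ insert c M ∧ σ M B c ∉ B) ∧
      ¬ ∃ W, IsCopy W ∧ (∀ x ∈ W, x ∈ Bd) ∧ W ⊆ insert c M

end Vale.Agent.Lib.P062
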