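import Vale.Agent.Lib.P062.Trans

namespace Vale.Agent.Lib.P062

/-- If Maker, owning the centre cell, wins against every single Breaker stone, then Maker wins on the
empty board. -/
theorem plane_of_all (h : ∀ d, d ≠ cA → MakerWins Set.univ {cA} {d}) : MakerWins Set.univ ∅ ∅ := by
  refine MakerWins.step ∅ ∅ cA (Set.mem_univ _) (Finset.notMem_empty _) (Finset.notMem_empty _)
    (exists_reply _ _) ?_
  intro d _ hd1 _
  have hd : d ≠ cA := by
    intro h'
    apply hd1
    rw [h']
    exact Finset.mem_insert_self _ _
  have key := h d hd
  simpa using key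

end Vale.Agent.Lib.P062
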