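import Vale.Agent.Lib.P062.Full
import Vale.Agent.Lib.P062.Plane

namespace Vale.Agent.Lib.P062

/-- Maker, owning the centre cell of the window, wins against every first Breaker stone. -/
theorem all_replies : ∀ d, d ≠ cA → MakerWins Set.univ {cA} {d} :=
  fun d hd => coreFull d hd (outM_zero d)

/-- Maker wins the Snaky achievement game on the empty infinite board. -/
theorem snaky_plane : MakerWins Set.univ ∅ ∅ :=
  plane_of_all all_replies

end Vale.Agent.Lib.P062
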