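import Vale.Agent.Lib.P062.Top

namespace Vale.Agent.Lib.P062

/-- The translation of the plane by `t`. -/
def eTr (t : ℤ × ℤ) : (ℤ × ℤ) ≃ (ℤ × ℤ) :=
  ⟨fun c => (c.1 + t.1, c.2 + t.2), fun c => (c.1 - t.1, c.2 - t.2),
    fun c => by ext <;> simp, fun c => by ext <;> simp⟩

theorem copy_tr (t : ℤ × ℤ) (W : Finset (ℤ × ℤ)) (h : IsCopy W) :
    IsCopy (W.map (eTr t).toEmbedding) := by
  obtain ⟨s, a, b, t0, ha, hb, rfl⟩ := h
  refine ⟨s, a, b, (t0.1 + t.1, t0.2 + t.2), ha, hb, ?_⟩
  rw [Finset.map_eq_image, Finset.image_image]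
  congr 1
  funext c
  cases s <;> simp [place, eTr] <;> constructor <;> ring

/-- A Maker win from the centre cell `cA` of the window against a Breaker stone gives a Maker win from
an arbitrary first cell `a` against the correspondingly translated Breaker stone `d`. -/
theorem transfer (a d : ℤ × ℤ)
    (h : MakerWins Set.univ {cA} {(d.1 - a.1 + 16, d.2 - a.2 + 16)}) : MakerWins Set.univ {a} {d} := by
  have key := makerWins_map (eTr (a.1 - 16, a.2 - 16)) (copy_tr _) h
  rw [Finset.map_singleton, Finset.map_singleton] at key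
  have h1 : (eTr (a.1 - 16, a.2 - 16)) cA = a := by
    ext <;> simp [eTr, cA]
  have h2 : (eTr (a.1 - 16, a.2 - 16)) (d.1 - a.1 + 16, d.2 - a.2 + 16) = d := by
    ext <;> simp [eTr]
  simp only [Equiv.coe_toEmbedding] at key
  rw [h1, h2] at key
  exact key

end Vale.Agent.Lib.P062
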