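import Vale.Agent.Lib.P062.NonAdj
import Vale.Agent.Lib.P062.Trans

namespace Vale.Agent.Lib.P062

/-- The cells of the remaining mask are the eight neighbours of the centre cell. -/
theorem nbr_bits : ∀ j, j < 1024 →
    Nat.testBit 13208868489072129984803290337730430407980655347164798109909970229437833298011364787759722742764547330287520102896699811171227382929519575907140620769450554936345317343232 j = true →
      (15 ≤ j % 32 ∧ j % 32 ≤ 17 ∧ 15 ≤ j / 32 ∧ j / 32 ≤ 17) := by
  decide +kernel

/-- Maker, owning one cell `a`, wins against every Breaker stone `d` that is not `a` and not one of the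
eight neighbours of `a`. -/
theorem nonAdjacent (a d : ℤ × ℤ) (h : ¬ (|d.1 - a.1| ≤ 1 ∧ |d.2 - a.2| ≤ 1)) :
    MakerWins Set.univ {a} {d} := by
  apply transfer
  apply coreNonAdj
  · intro heq
    apply h
    have h1 : d.1 - a.1 + 16 = 16 := congrArg Prod.fst heq
    have h2 : d.2 - a.2 + 16 = 16 := congrArg Prod.snd heq
    have e1 : d.1 - a.1 = 0 := by omega
    have e2 : d.2 - a.2 = 0 := by omega
    rw [e1, e2]
    simp
  · intro j hj hjd
    by_contra hb
    have hb' : Nat.testBit 13208868489072129984803290337730430407980655347164798109909970229437833298011364787759722742764547330287520102896699811171227382929519575907140620769450554936345317343232 j = true := by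
      simpa using hb
    obtain ⟨b1, b2, b3, b4⟩ := nbr_bits j hj hb'
    apply h
    unfold cellOf at hjd
    have h1 : ((j % 32 : ℕ) : ℤ) = d.1 - a.1 + 16 := congrArg Prod.fst hjd
    have h2 : ((j / 32 : ℕ) : ℤ) = d.2 - a.2 + 16 := congrArg Prod.snd hjd
    constructor <;> rw [abs_le] <;> constructor <;> omega

end Vale.Agent.Lib.P062
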