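import Vale.Agent.Lib.P062.Defs

namespace Vale.Agent.Lib.P062

/-- A pairing, given as an involution `p` of the cells (unpaired cells are fixed). -/
structure IsPairingMap (Bd : Set (ℤ × ℤ)) (p : ℤ × ℤ → ℤ × ℤ) : Prop where
  invol : ∀ c, p (p c) = c
  mem : ∀ c ∈ Bd, p c ∈ Bd
  hit : ∀ W, IsCopy W → (∀ x ∈ W, x ∈ Bd) → ∃ c ∈ W, p c ∈ W ∧ p c ≠ c

/-- Invariant kept by the pairing strategy. -/
def PInv (p : ℤ × ℤ → ℤ × ℤ) (M B : Finset (ℤ × ℤ)) : Prop :=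
  (∀ x ∈ M, p x ≠ x → p x ∈ B) ∧ ∀ x ∈ M, x ∉ B

theorem no_copy_of_inv {Bd : Set (ℤ × ℤ)} {p : ℤ × ℤ → ℤ × ℤ} (hp : IsPairingMap Bd p)
    {M B : Finset (ℤ × ℤ)} (hI : PInv p M B) {c : ℤ × ℤ} (hcB : c ∉ B) :
    ¬ ∃ W, IsCopy W ∧ (∀ x ∈ W, x ∈ Bd) ∧ W ⊆ insert c M := by
  rintro ⟨W, hW, hWB, hsub⟩
  obtain ⟨x, hx, hpx, hne⟩ := hp.hit W hW hWB
  have h1 := hsub hx
  have h2 := hsub hpx
  rw [Finset.mem_insert] at h1 h2
  rcases h1 with h1 | h1
  · subst h1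
    rcases h2 with h2 | h2
    · exact hne h2
    · have h3 := hI.1 (p x) h2 (by rw [hp.invol]; exact fun h => hne h.symm)
      rw [hp.invol] at h3
      exact hcB h3
  · have h3 := hI.1 x h1 hne
    rcases h2 with h2 | h2
    · rw [h2] at h3; exact hcB h3
    · exact hI.2 _ h2 h3

theorem inv_step {p : ℤ × ℤ → ℤ × ℤ} (hinv : ∀ c, p (p c) = c)
    {M B : Finset (ℤ × ℤ)} (hI : PInv p M B) {c d : ℤ × ℤ} (hcB : c ∉ B)
    (hd : d ∉ insert c M) (hpc : p c = c ∨ p c ∈ insert d B) :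
    PInv p (insert c M) (insert d B) := by
  refine ⟨?_, ?_⟩
  · intro x hx hne
    rw [Finset.mem_insert] at hx
    rcases hx with hx | hx
    · subst hx
      rcases hpc with h | h
      · exact absurd h hne
      · exact h
    · exact Finset.mem_insert_of_mem (hI.1 x hx hne)
  · intro x hx hxB
    rw [Finset.mem_insert] at hxB
    rcases hxB with h | h
    · exact hd (h ▸ hx)
    · rw [Finset.mem_insert] at hx
      rcases hx with hx | hx
      · exact hcB (hx ▸ h)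
      · exact hI.2 x hx h

theorem pair_legal {Bd : Set (ℤ × ℤ)} {p : ℤ × ℤ → ℤ × ℤ} (hp : IsPairingMap Bd p)
    {M B : Finset (ℤ × ℤ)} (hI : PInv p M B) {c : ℤ × ℤ} (hc : c ∈ Bd) (hcB : c ∉ B)
    (hne : p c ≠ c) (hpB : p c ∉ B) :
    p c ∈ Bd ∧ p c ∉ insert c M ∧ p c ∉ B := by
  refine ⟨hp.mem c hc, ?_, hpB⟩
  intro h
  rw [Finset.mem_insert] at h
  rcases h with h | h
  · exact hne h
  · have h3 := hI.1 (p c) h (by rw [hp.invol]; exact fun h => hne h.symm)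
    rw [hp.invol] at h3
    exact hcB h3

theorem not_makerWins_of_inv {Bd : Set (ℤ × ℤ)} {p : ℤ × ℤ → ℤ × ℤ} (hp : IsPairingMap Bd p)
    {M B : Finset (ℤ × ℤ)} (hw : MakerWins Bd M B) : ¬ PInv p M B := by
  induction hw with
  | win M B c hc hcM hcB h =>
    intro hI
    exact no_copy_of_inv hp hI hcB h
  | step M B c hc hcM hcB hex h ih =>
    intro hI
    obtain ⟨d, hd1, hd2, hd3⟩ := hex
    by_cases hq : p c ≠ c ∧ p c ∉ B
    · obtain ⟨l1, l2, l3⟩ := pair_legal hp hI hc hcB hq.1 hq.2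
      exact ih (p c) l1 l2 l3 (inv_step hp.invol hI hcB l2 (Or.inr (Finset.mem_insert_self _ _)))
    · refine ih d hd1 hd2 hd3 (inv_step hp.invol hI hcB hd2 ?_)
      by_cases h1 : p c = c
      · exact Or.inl h1
      · right
        have : p c ∈ B := by
          by_contra h2
          exact hq ⟨h1, h2⟩
        exact Finset.mem_insert_of_mem this

open Classical in
/-- The pairing strategy: answer `c` by its partner if that cell is free, otherwise by any legal move. -/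
noncomputable def pairReply (Bd : Set (ℤ × ℤ)) (p : ℤ × ℤ → ℤ × ℤ)
    (M B : Finset (ℤ × ℤ)) (c : ℤ × ℤ) : ℤ × ℤ :=
  if p c ≠ c ∧ p c ∉ B then p c
  else if h : ∃ d, d ∈ Bd ∧ d ∉ insert c M ∧ d ∉ B then h.choose else c

theorem exists_free {Bd : Set (ℤ × ℤ)} (hinf : Bd.Infinite) (M B : Finset (ℤ × ℤ)) :
    ∃ d, d ∈ Bd ∧ d ∉ M ∧ d ∉ B := by
  obtain ⟨d, hd, hd2⟩ := hinf.exists_notMem_finset (M ∪ B)
  rw [Finset.mem_union, not_or] at hd2
  exact ⟨d, hd, hd2.1, hd2.2⟩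

theorem pairReply_spec {Bd : Set (ℤ × ℤ)} (hinf : Bd.Infinite) {p : ℤ × ℤ → ℤ × ℤ}
    (hp : IsPairingMap Bd p) {M B : Finset (ℤ × ℤ)} (hI : PInv p M B) {c : ℤ × ℤ} (hc : c ∈ Bd)
    (hcB : c ∉ B) :
    (pairReply Bd p M B c ∈ Bd ∧ pairReply Bd p M B c ∉ insert c M ∧ pairReply Bd p M B c ∉ B) ∧
      PInv p (insert c M) (insert (pairReply Bd p M B c) B) := by
  unfold pairReply
  by_cases hq : p c ≠ c ∧ p c ∉ B
  · rw [if_pos hq]
    have hl := pair_legal hp hI hc hcB hq.1 hq.2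
    exact ⟨hl, inv_step hp.invol hI hcB hl.2.1 (Or.inr (Finset.mem_insert_self _ _))⟩
  · rw [if_neg hq]
    have hex : ∃ d, d ∈ Bd ∧ d ∉ insert c M ∧ d ∉ B := exists_free hinf (insert c M) B
    rw [dif_pos hex]
    have hs := hex.choose_spec
    refine ⟨hs, inv_step hp.invol hI hcB hs.2.1 ?_⟩
    by_cases h1 : p c = c
    · exact Or.inl h1
    · right
      have : p c ∈ B := by
        by_contra h2
        exact hq ⟨h1, h2⟩
      exact Finset.mem_insert_of_mem this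

theorem reach_inv {Bd : Set (ℤ × ℤ)} (hinf : Bd.Infinite) {p : ℤ × ℤ → ℤ × ℤ}
    (hp : IsPairingMap Bd p) {M B : Finset (ℤ × ℤ)} (hr : Reach Bd (pairReply Bd p) M B) :
    PInv p M B := by
  induction hr with
  | start => exact ⟨fun x hx => absurd hx (Finset.notMem_empty x), fun x hx => absurd hx (Finset.notMem_empty x)⟩
  | move M B c _ hc _ hcB ih => exact (pairReply_spec hinf hp ih hc hcB).2

/-- A pairing on an infinite board gives Breaker a win. -/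
theorem pairing_breaker {Bd : Set (ℤ × ℤ)} (hinf : Bd.Infinite) {p : ℤ × ℤ → ℤ × ℤ}
    (hp : IsPairingMap Bd p) :
    ¬ MakerWins Bd ∅ ∅ ∧ ∃ σ, BreakerSafe Bd σ := by
  refine ⟨fun hw => not_makerWins_of_inv hp hw
    ⟨fun x hx => absurd hx (Finset.notMem_empty x), fun x hx => absurd hx (Finset.notMem_empty x)⟩,
    pairReply Bd p, ?_⟩
  intro M B hr c hc _ hcB
  have hI := reach_inv hinf hp hr
  exact ⟨(pairReply_spec hinf hp hI hc hcB).1, no_copy_of_inv hp hI hcB⟩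

end Vale.Agent.Lib.P062
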