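import Vale.Agent.Lib.P062.Part
import Vale.Agent.Lib.P062.Trans

namespace Vale.Agent.Lib.P062

theorem part_bits : ∀ j, j < 1024 →
    Nat.testBit 3773962427018276603687936602775986013498791405994384671435604159129544018674228381279385024132170012233338213393867674366974876959776333230546838805574222162639246589952 j = true →
      ((j % 32 = 16 ∧ (j / 32 = 15 ∨ j / 32 = 17)) ∨ (j / 32 = 16 ∧ (j % 32 = 15 ∨ j % 32 = 17))) := by
  decide +kernel

theorem partThm (a d : ℤ × ℤ) (hne : d ≠ a) (h : ¬ ((d.1 = a.1 ∧ (d.2 = a.2 - 1 ∨ d.2 = a.2 + 1)) ∨ (d.2 = a.2 ∧ (d.1 = a.1 - 1 ∨ d.1 = a.1 + 1)))) :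
    MakerWins Set.univ {a} {d} := by
  apply transfer
  apply corePart
  · intro heq
    apply hne
    have h1 : d.1 - a.1 + 16 = 16 := congrArg Prod.fst heq
    have h2 : d.2 - a.2 + 16 = 16 := congrArg Prod.snd heq
    ext <;> omega
  · intro j hj hjd
    by_contra hb
    have hb' : Nat.testBit 3773962427018276603687936602775986013498791405994384671435604159129544018674228381279385024132170012233338213393867674366974876959776333230546838805574222162639246589952 j = true := by
      simpa using hb
    have hbits := part_bits j hj hb'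
    apply h
    unfold cellOf at hjd
    have h1 : ((j % 32 : ℕ) : ℤ) = d.1 - a.1 + 16 := congrArg Prod.fst hjd
    have h2 : ((j / 32 : ℕ) : ℤ) = d.2 - a.2 + 16 := congrArg Prod.snd hjd
    omega

end Vale.Agent.Lib.P062
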