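import Vale.Agent.Lib.P062.K3.RQ
import Vale.Agent.Lib.P062.PartThm
import Vale.Agent.Lib.P062.Plane

namespace Vale.Agent.Lib.P062

/-- Maker's second stone, the first Breaker stone and the critical second Breaker stone in the window. -/
def cB : ℤ × ℤ := (16, 17)
def cX : ℤ × ℤ := (17, 16)
def cCap : ℤ × ℤ := (16, 18)

theorem dec_AB : dec (2 ^ 528 ||| 2 ^ 560) = {cB, cA} := by
  rw [dec_or_pow (by norm_num), dec_A]
  rfl

theorem cellOf_X : cellOf 529 = cX := by
  unfold cellOf cX
  norm_num

theorem cellOf_Cap : cellOf 592 = cCap := by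
  unfold cellOf cCap
  norm_num

theorem cQ_eq : 3773962425700235452738272624505952193199339552226928146794549392648115485167898379561026699849346401546134558067857772757880134458676407096525164659442171664912122642432 = 2 ^ 528 ||| 2 ^ 560 := by
  decide +kernel

theorem mQ_eq : 16209045190941378744189093217543598246142368094697019140608036444104112544581672446873855659949624196438272994575393707743731058888327247296433104820757670652582741419537146576896 = 2 ^ 592 := by
  decide +kernel

set_option exponentiation.threshold 1024 in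
/-- After Maker `cA`, Breaker `cX`, Maker `cB`: Maker wins against every Breaker reply other than `cCap`. -/
theorem q_replies (d : ℤ × ℤ) (hA : d ≠ cA) (hB : d ≠ cB) (hX : d ≠ cX) (hCap : d ≠ cCap) :
    MakerWins Set.univ {cB, cA} {d, cX} := by
  have hok := okQ
  rw [cQ_eq, mQ_eq] at hok
  have key := hok {cX} ?_ ?_ d ?_ ?_ ?_
  · rw [dec_AB] at key
    exact key
  · intro j hj hbit hmem
    rw [Finset.mem_singleton, ← cellOf_X] at hmem
    have hj' : j = 529 := cellOf_inj hmem
    rw [hj', uQ_X] at hbit
    exact absurd hbit (by simp)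
  · intro x hx
    rw [dec_AB] at hx
    rw [Finset.mem_singleton]
    rw [Finset.mem_insert, Finset.mem_singleton] at hx
    rcases hx with rfl | rfl
    · unfold cB cX; simp
    · unfold cA cX; simp
  · rw [dec_AB, Finset.mem_insert, Finset.mem_singleton]
    exact fun h => h.elim hB hA
  · rw [Finset.mem_singleton]
    exact hX
  · intro j hj hjd
    by_contra hne
    have hbit : Nat.testBit (2 ^ 592) j = true := eq_true_of_ne_false hne
    have hj' : 592 = j := of_decide_eq_true ((Nat.testBit_two_pow (n := 592) (m := j)).symm.trans hbit)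
    apply hCap
    rw [← hjd, ← hj', cellOf_Cap]

/-- If Maker wins from the critical position, Maker wins against the first Breaker stone `cX`. -/
theorem red_X (h : MakerWins Set.univ {cB, cA} {cCap, cX}) : MakerWins Set.univ {cA} {cX} := by
  refine MakerWins.step {cA} {cX} cB (Set.mem_univ _) (by unfold cA cB; simp) (by unfold cB cX; simp)
    (exists_reply _ _) ?_
  intro d _ hd1 hd2
  rw [Finset.mem_insert, Finset.mem_singleton, not_or] at hd1
  rw [Finset.mem_singleton] at hd2
  by_cases hcap : d = cCap
  · rw [hcap]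
    exact h
  · exact q_replies d hd1.2 hd1.1 hd2 hcap

theorem red_orth (h : MakerWins Set.univ {cA} {cX}) (d : ℤ × ℤ)
    (hd : (d.1 = 16 ∧ (d.2 = 15 ∨ d.2 = 17)) ∨ (d.2 = 16 ∧ (d.1 = 15 ∨ d.1 = 17))) :
    MakerWins Set.univ {cA} {d} := by
  have hX := makerWins_map eX copy_X h
  have hT := makerWins_map eT copy_T h
  have hTY := makerWins_map eY copy_Y hT
  simp only [Finset.map_singleton, Equiv.coe_toEmbedding] at hX hT hTY
  have e1 : eX cA = cA := by unfold eX cA; simp
  have e2 : eX cX = (15, 16) := by unfold eX cX; simp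
  have e3 : eT cA = cA := rfl
  have e4 : eT cX = (16, 17) := rfl
  have e5 : eY cA = cA := by unfold eY cA; simp
  have e6 : eY ((16 : ℤ), (17 : ℤ)) = (16, 15) := by unfold eY; simp
  rw [e1, e2] at hX
  rw [e3, e4] at hT
  rw [e3, e4, e5, e6] at hTY
  obtain ⟨d1, d2⟩ := d
  simp only at hd
  rcases hd with ⟨h1, h2 | h2⟩ | ⟨h1, h2 | h2⟩
  · rw [h1, h2]; exact hTY
  · rw [h1, h2]; exact hT
  · rw [h1, h2]; exact hX
  · rw [h1, h2]; exact h

theorem red_all (h : MakerWins Set.univ {cA} {cX}) : ∀ d, d ≠ cA → MakerWins Set.univ {cA} {d} := by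
  intro d hd
  by_cases horth : (d.1 = 16 ∧ (d.2 = 15 ∨ d.2 = 17)) ∨ (d.2 = 16 ∧ (d.1 = 15 ∨ d.1 = 17))
  · exact red_orth h d horth
  · apply corePart d hd
    intro j hj hjd
    by_contra hb
    have hb' : Nat.testBit 3773962427018276603687936602775986013498791405994384671435604159129544018674228381279385024132170012233338213393867674366974876959776333230546838805574222162639246589952 j = true := by
      simpa using hb
    have hbits := part_bits j hj hb'
    apply horth
    unfold cellOf at hjd
    have h1 : ((j % 32 : ℕ) : ℤ) = d.1 := congrArg Prod.fst hjd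
    have h2 : ((j / 32 : ℕ) : ℤ) = d.2 := congrArg Prod.snd hjd
    omega

/-- Reduction of the game on the empty board to the critical position (window coordinates). -/
theorem red_plane (h : MakerWins Set.univ {cB, cA} {cCap, cX}) : MakerWins Set.univ ∅ ∅ :=
  plane_of_all (red_all (red_X h))

/-- The same two statements with Maker's first stone at the origin. -/
theorem one_replies (e : ℤ × ℤ) (h00 : e ≠ (0, 0)) (h01 : e ≠ (0, 1)) (h10 : e ≠ (1, 0)) (h02 : e ≠ (0, 2)) :
    MakerWins Set.univ {(0, 0), (0, 1)} {(1, 0), e} := by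
  have key := q_replies (e.1 + 16, e.2 + 16) ?_ ?_ ?_ ?_
  · have key2 := makerWins_map (eTr (-16, -16)) (copy_tr _) key
    have hM : ({cB, cA} : Finset (ℤ × ℤ)).map (eTr (-16, -16)).toEmbedding = {(0, 0), (0, 1)} := by
      ext x
      simp [eTr, cA, cB]
      constructor
      · rintro (h | h) <;> simp [← h]
      · rintro (h | h) <;> simp [h]
    have hB : ({(e.1 + 16, e.2 + 16), cX} : Finset (ℤ × ℤ)).map (eTr (-16, -16)).toEmbedding = {(1, 0), e} := by
      ext x
      simp [eTr, cX]
      constructor
      · rintro (h | h)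
        · right; rw [← h]
        · left; rw [← h]
      · rintro (h | h)
        · right; rw [h]
        · left; rw [h]
    rw [hM, hB] at key2
    exact key2
  · intro h; apply h00; unfold cA at h; ext <;> simp at h ⊢ <;> omega
  · intro h; apply h01; unfold cB at h; ext <;> simp at h ⊢ <;> omega
  · intro h; apply h10; unfold cX at h; ext <;> simp at h ⊢ <;> omega
  · intro h; apply h02; unfold cCap at h; ext <;> simp at h ⊢ <;> omega

theorem one_reduction (h : MakerWins Set.univ {(0, 0), (0, 1)} {(1, 0), (0, 2)}) : MakerWins Set.univ ∅ ∅ := by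
  apply red_plane
  have key := makerWins_map (eTr (16, 16)) (copy_tr _) h
  have hM : ({(0, 0), (0, 1)} : Finset (ℤ × ℤ)).map (eTr (16, 16)).toEmbedding = {cB, cA} := by
    ext x
    simp [eTr, cA, cB]
    constructor
    · rintro (h | h) <;> simp [← h]
    · rintro (h | h) <;> simp [h]
  have hB : ({(1, 0), (0, 2)} : Finset (ℤ × ℤ)).map (eTr (16, 16)).toEmbedding = {cCap, cX} := by
    ext x
    simp [eTr, cX, cCap]
    constructor
    · rintro (h | h) <;> simp [← h]
    · rintro (h | h) <;> simp [h]
  rw [hM, hB] at key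
  exact key

end Vale.Agent.Lib.P062
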