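import Vale.Agent.Lib.P062.Pairing

namespace Vale.Agent.Lib.P062

/-- Offsets of a domino pairing of the strip of height five, of period six. -/
def shift5 (r y : ℤ) : ℤ × ℤ :=
  if y = 0 ∨ y = 3 then
    (if r = 1 ∨ r = 4 then (0, 1) else if r = 2 ∨ r = 5 then (1, 0) else (-1, 0))
  else if y = 1 ∨ y = 4 then
    (if r = 1 ∨ r = 4 then (0, -1) else if r = 2 ∨ r = 5 then (1, 0) else (-1, 0))
  else if y = 2 then
    (if r = 1 ∨ r = 4 then (1, 0) else if r = 2 ∨ r = 5 then (-1, 0) else (0, 0))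
  else (0, 0)

def pair5 (c : ℤ × ℤ) : ℤ × ℤ :=
  (c.1 + (shift5 (c.1 % 6) c.2).1, c.2 + (shift5 (c.1 % 6) c.2).2)

def snakyL : List (ℤ × ℤ) := [(0, 0), (1, 0), (2, 0), (3, 0), (3, 1), (4, 1)]

theorem pair5_per (x y k : ℤ) :
    pair5 (x + 6 * k, y) = ((pair5 (x, y)).1 + 6 * k, (pair5 (x, y)).2) := by
  unfold pair5
  simp only [Int.add_mul_emod_self_left]
  ext <;> simp <;> ring

theorem pair5_out (x y : ℤ) (h : ¬ (0 ≤ y ∧ y < 5)) : pair5 (x, y) = (x, y) := by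
  have h0 : y ≠ 0 := by omega
  have h1 : y ≠ 1 := by omega
  have h2 : y ≠ 2 := by omega
  have h3 : y ≠ 3 := by omega
  have h4 : y ≠ 4 := by omega
  unfold pair5 shift5
  simp [h0, h1, h2, h3, h4]

theorem fin_invol : ∀ r ∈ [(0 : ℤ), 1, 2, 3, 4, 5], ∀ y ∈ [(0 : ℤ), 1, 2, 3, 4],
    pair5 (pair5 (r, y)) = (r, y) ∧ 0 ≤ (pair5 (r, y)).2 ∧ (pair5 (r, y)).2 < 5 := by
  decide

theorem mem_r (x : ℤ) : x % 6 ∈ [(0 : ℤ), 1, 2, 3, 4, 5] := by
  have h1 := Int.emod_nonneg x (by norm_num : (6 : ℤ) ≠ 0)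
  have h2 := Int.emod_lt_of_pos x (by norm_num : (0 : ℤ) < 6)
  simp only [List.mem_cons, List.not_mem_nil, or_false]
  omega

theorem mem_y (y : ℤ) (h : 0 ≤ y ∧ y < 5) : y ∈ [(0 : ℤ), 1, 2, 3, 4] := by
  simp only [List.mem_cons, List.not_mem_nil, or_false]
  omega

theorem decomp (x : ℤ) : x = x % 6 + 6 * (x / 6) := (Int.emod_add_mul_ediv x 6).symm

theorem pair5_invol (c : ℤ × ℤ) : pair5 (pair5 c) = c := by
  obtain ⟨x, y⟩ := c
  by_cases h : 0 ≤ y ∧ y < 5
  · have hf := (fin_invol (x % 6) (mem_r x) y (mem_y y h)).1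
    have e1 : pair5 (x, y) = ((pair5 (x % 6, y)).1 + 6 * (x / 6), (pair5 (x % 6, y)).2) := by
      conv_lhs => rw [decomp x]
      exact pair5_per _ _ _
    rw [e1, pair5_per, hf]
    ext
    · exact (decomp x).symm
    · rfl
  · rw [pair5_out x y h, pair5_out x y h]

theorem pair5_mem (c : ℤ × ℤ) (h : 0 ≤ c.2 ∧ c.2 < 5) : 0 ≤ (pair5 c).2 ∧ (pair5 c).2 < 5 := by
  obtain ⟨x, y⟩ := c
  have hf := (fin_invol (x % 6) (mem_r x) y (mem_y y h)).2
  have e1 : pair5 (x, y) = ((pair5 (x % 6, y)).1 + 6 * (x / 6), (pair5 (x % 6, y)).2) := by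
    conv_lhs => rw [decomp x]
    exact pair5_per _ _ _
  rw [e1]
  exact hf

theorem fin_hit : ∀ s ∈ [true, false], ∀ a ∈ [(1 : ℤ), -1], ∀ b ∈ [(1 : ℤ), -1],
    ∀ r ∈ [(0 : ℤ), 1, 2, 3, 4, 5], ∀ y ∈ [(0 : ℤ), 1, 2, 3, 4],
    (∀ c ∈ snakyL, 0 ≤ (place s a b (r, y) c).2 ∧ (place s a b (r, y) c).2 < 5) →
    ∃ c ∈ snakyL, ∃ c' ∈ snakyL, pair5 (place s a b (r, y) c) = place s a b (r, y) c' ∧
      place s a b (r, y) c' ≠ place s a b (r, y) c := by
  decide

theorem place_shift (s : Bool) (a b x y k : ℤ) (c : ℤ × ℤ) :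
    place s a b (x + 6 * k, y) c = ((place s a b (x, y) c).1 + 6 * k, (place s a b (x, y) c).2) := by
  unfold place
  cases s <;> simp <;> ring

theorem mem_snaky_iff (c : ℤ × ℤ) : c ∈ snaky ↔ c ∈ snakyL := by
  unfold snaky snakyL
  simp

theorem pair5_isPairing : IsPairingMap {c : ℤ × ℤ | 0 ≤ c.2 ∧ c.2 < 5} pair5 where
  invol := pair5_invol
  mem := fun c hc => pair5_mem c hc
  hit := by
    rintro W ⟨s, a, b, ⟨x, y⟩, ha, hb, rfl⟩ hW
    have hs : s ∈ [true, false] := by cases s <;> simp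
    have ha' : a ∈ [(1 : ℤ), -1] := by simpa using ha
    have hb' : b ∈ [(1 : ℤ), -1] := by simpa using hb
    have hW' : ∀ c ∈ snakyL, 0 ≤ (place s a b (x, y) c).2 ∧ (place s a b (x, y) c).2 < 5 := by
      intro c hc
      exact hW _ (Finset.mem_image_of_mem _ ((mem_snaky_iff c).2 hc))
    have hy : 0 ≤ y ∧ y < 5 := by
      have := hW' (0, 0) (by simp [snakyL])
      unfold place at this
      cases s <;> simpa using this
    have e : ∀ c, place s a b (x, y) c =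
        ((place s a b (x % 6, y) c).1 + 6 * (x / 6), (place s a b (x % 6, y) c).2) := by
      intro c
      conv_lhs => rw [decomp x]
      exact place_shift _ _ _ _ _ _ _
    have hW'' : ∀ c ∈ snakyL, 0 ≤ (place s a b (x % 6, y) c).2 ∧ (place s a b (x % 6, y) c).2 < 5 := by
      intro c hc
      have := hW' c hc
      rw [e c] at this
      exact this
    obtain ⟨c, hc, c', hc', h1, h2⟩ := fin_hit s hs a ha' b hb' (x % 6) (mem_r x) y (mem_y y hy) hW''
    refine ⟨place s a b (x, y) c, Finset.mem_image_of_mem _ ((mem_snaky_iff c).2 hc), ?_, ?_⟩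
    · have : pair5 (place s a b (x, y) c) = place s a b (x, y) c' := by
        rw [e c, pair5_per, e c', h1]
      rw [this]
      exact Finset.mem_image_of_mem _ ((mem_snaky_iff c').2 hc')
    · have : pair5 (place s a b (x, y) c) = place s a b (x, y) c' := by
        rw [e c, pair5_per, e c', h1]
      rw [this, e c, e c']
      intro h
      apply h2
      have h3 := congrArg Prod.fst h
      have h4 := congrArg Prod.snd h
      simp only at h3 h4
      ext
      · linarith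
      · exact h4

theorem strip5_infinite : ({c : ℤ × ℤ | 0 ≤ c.2 ∧ c.2 < 5} : Set (ℤ × ℤ)).Infinite := by
  have hinj : Function.Injective (fun n : ℕ => ((n : ℤ), (0 : ℤ))) := by
    intro m n h
    have := congrArg Prod.fst h
    simpa using this
  refine Set.infinite_of_injective_forall_mem hinj ?_
  intro n
  simp

open Classical in
/-- A pairing of a board restricts to a pairing of every sub-board. -/
theorem IsPairingMap.restrict {Bd Bd' : Set (ℤ × ℤ)} {p : ℤ × ℤ → ℤ × ℤ} (hp : IsPairingMap Bd p)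
    (hsub : Bd' ⊆ Bd) : IsPairingMap Bd' (fun c => if c ∈ Bd' ∧ p c ∈ Bd' then p c else c) where
  invol := by
    intro c
    by_cases h : c ∈ Bd' ∧ p c ∈ Bd'
    · have h2 : p c ∈ Bd' ∧ c ∈ Bd' := ⟨h.2, h.1⟩
      simp only [if_pos h, hp.invol, if_pos h2]
    · simp only [if_neg h]
  mem := by
    intro c hc
    by_cases h : c ∈ Bd' ∧ p c ∈ Bd'
    · simp only [if_pos h]; exact h.2
    · simp only [if_neg h]; exact hc
  hit := by
    intro W hW hWB
    obtain ⟨c, hc, hpc, hne⟩ := hp.hit W hW (fun x hx => hsub (hWB x hx))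
    have h : c ∈ Bd' ∧ p c ∈ Bd' := ⟨hWB c hc, hWB _ hpc⟩
    exact ⟨c, hc, by simp only [if_pos h]; exact hpc, by simp only [if_pos h]; exact hne⟩

theorem strip5_breaker :
    (∀ Bd : Set (ℤ × ℤ), Bd ⊆ {c : ℤ × ℤ | 0 ≤ c.2 ∧ c.2 < 5} → ¬ MakerWins Bd ∅ ∅) ∧
      ∃ σ, BreakerSafe {c : ℤ × ℤ | 0 ≤ c.2 ∧ c.2 < 5} σ := by
  refine ⟨?_, (pairing_breaker strip5_infinite pair5_isPairing).2⟩
  intro Bd hsub hw
  exact not_makerWins_of_inv (pair5_isPairing.restrict hsub) hw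
    ⟨fun x hx => absurd hx (Finset.notMem_empty x), fun x hx => absurd hx (Finset.notMem_empty x)⟩

end Vale.Agent.Lib.P062
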