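import Vale.Agent.Lib.P062.CertSound

namespace Vale.Agent.Lib.P062

theorem map_ins (e : (ℤ × ℤ) ≃ (ℤ × ℤ)) (c : ℤ × ℤ) (M : Finset (ℤ × ℤ)) :
    insert (e c) (M.map e.toEmbedding) = (insert c M).map e.toEmbedding := by
  simp

theorem mem_map_e (e : (ℤ × ℤ) ≃ (ℤ × ℤ)) (c : ℤ × ℤ) (M : Finset (ℤ × ℤ)) :
    e c ∈ M.map e.toEmbedding ↔ c ∈ M := by
  simp

/-- Transport of a Maker win on the whole plane along a bijection of the cells preserving allowed copies. -/
theorem makerWins_map (e : (ℤ × ℤ) ≃ (ℤ × ℤ))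
    (hcopy : ∀ W, IsCopy W → IsCopy (W.map e.toEmbedding))
    {M B : Finset (ℤ × ℤ)} (h : MakerWins Set.univ M B) :
    MakerWins Set.univ (M.map e.toEmbedding) (B.map e.toEmbedding) := by
  induction h with
  | win M B c _ hcM hcB hW =>
    obtain ⟨W, hW, _, hsub⟩ := hW
    refine MakerWins.win _ _ (e c) (Set.mem_univ _) ?_ ?_ ⟨W.map e.toEmbedding, hcopy W hW,
      fun _ _ => Set.mem_univ _, ?_⟩
    · rw [mem_map_e]; exact hcM
    · rw [mem_map_e]; exact hcB
    · rw [map_ins]
      exact Finset.map_subset_map.2 hsub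
  | step M B c _ hcM hcB hex _ ih =>
    obtain ⟨d, _, hd1, hd2⟩ := hex
    refine MakerWins.step _ _ (e c) (Set.mem_univ _) ?_ ?_ ⟨e d, Set.mem_univ _, ?_, ?_⟩ ?_
    · rw [mem_map_e]; exact hcM
    · rw [mem_map_e]; exact hcB
    · rw [map_ins, mem_map_e]; exact hd1
    · rw [mem_map_e]; exact hd2
    · intro d' _ hd'1 hd'2
      have hd' : d' = e (e.symm d') := by simp
      have h1 : e.symm d' ∉ insert c M := by
        intro hmem
        apply hd'1
        rw [map_ins, hd', mem_map_e]
        exact hmem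
      have h2 : e.symm d' ∉ B := by
        intro hmem
        apply hd'2
        rw [hd', mem_map_e]
        exact hmem
      have := ih (e.symm d') (Set.mem_univ _) h1 h2
      rw [← map_ins, ← map_ins, ← hd'] at this
      exact this

end Vale.Agent.Lib.P062
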