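import Vale.Agent.Lib.P062.Sym

namespace Vale.Agent.Lib.P062

/-- Maker's first stone in the certificates: the centre of the window. -/
def cA : ℤ × ℤ := (16, 16)

/-- `Good m`: Maker, owning the single cell `cA`, wins against any Breaker stone outside the mask `m`. -/
def Good (m : ℕ) : Prop := ∀ d, d ≠ cA → OutM m d → MakerWins Set.univ {cA} {d}

theorem dec_zero : dec 0 = ∅ := by
  unfold dec
  simp

theorem dec_A : dec (2 ^ 528) = {cA} := by
  have h := dec_or_pow (C := 0) (b := 528) (by norm_num)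
  rw [Nat.zero_or, dec_zero] at h
  rw [h]
  rfl

theorem chk_of_chkB {C : ℕ} {pt : PT} {u m : ℕ} (h : chkB C pt u m = true) :
    chk C pt = some (u, some m) := by
  unfold chkB at h
  split at h
  · rename_i u' m' heq
    rw [Bool.and_eq_true] at h
    rw [heq, Nat.eq_of_beq_eq_true h.1, Nat.eq_of_beq_eq_true h.2]
  · exact absurd h (by simp)

theorem good_of_chk {pt : PT} {u m : ℕ} (h0 : chkB (2 ^ 528) pt u m = true) : Good m := by
  have h := chk_of_chkB h0
  intro d hd hout
  have h1 : d ∉ dec (2 ^ 528) := by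
    rw [dec_A, Finset.mem_singleton]
    exact hd
  have := chk_sound pt (2 ^ 528) u (some m) h ∅ (fun _ _ _ => Finset.notMem_empty _)
    (fun _ _ => Finset.notMem_empty _) d h1 (Finset.notMem_empty _) hout
  rw [dec_A] at this
  exact this

/-- The three generating symmetries of the square fixing `cA`. -/
def eT : (ℤ × ℤ) ≃ (ℤ × ℤ) :=
  ⟨fun c => (c.2, c.1), fun c => (c.2, c.1), fun _ => rfl, fun _ => rfl⟩

def eX : (ℤ × ℤ) ≃ (ℤ × ℤ) :=
  ⟨fun c => (32 - c.1, c.2), fun c => (32 - c.1, c.2),
    fun c => by ext <;> simp, fun c => by ext <;> simp⟩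

def eY : (ℤ × ℤ) ≃ (ℤ × ℤ) :=
  ⟨fun c => (c.1, 32 - c.2), fun c => (c.1, 32 - c.2),
    fun c => by ext <;> simp, fun c => by ext <;> simp⟩

theorem neg_pm {a : ℤ} (h : a = 1 ∨ a = -1) : -a = 1 ∨ -a = -1 := by
  rcases h with h | h <;> simp [h]

theorem copy_T (W : Finset (ℤ × ℤ)) (h : IsCopy W) : IsCopy (W.map eT.toEmbedding) := by
  obtain ⟨s, a, b, t, ha, hb, rfl⟩ := h
  refine ⟨!s, b, a, (t.2, t.1), hb, ha, ?_⟩
  rw [Finset.map_eq_image, Finset.image_image]
  congr 1
  funext c
  cases s <;> simp [place, eT]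

theorem copy_X (W : Finset (ℤ × ℤ)) (h : IsCopy W) : IsCopy (W.map eX.toEmbedding) := by
  obtain ⟨s, a, b, t, ha, hb, rfl⟩ := h
  refine ⟨s, -a, b, (32 - t.1, t.2), neg_pm ha, hb, ?_⟩
  rw [Finset.map_eq_image, Finset.image_image]
  congr 1
  funext c
  cases s <;> simp [place, eX] <;> ring

theorem copy_Y (W : Finset (ℤ × ℤ)) (h : IsCopy W) : IsCopy (W.map eY.toEmbedding) := by
  obtain ⟨s, a, b, t, ha, hb, rfl⟩ := h
  refine ⟨s, a, -b, (t.1, 32 - t.2), ha, neg_pm hb, ?_⟩
  rw [Finset.map_eq_image, Finset.image_image]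
  congr 1
  funext c
  cases s <;> simp [place, eY] <;> ring

def iT (j : ℕ) : ℕ := j / 32 + 32 * (j % 32)
def iX (j : ℕ) : ℕ := if j % 32 = 0 then 1024 else (32 - j % 32) + 32 * (j / 32)
def iY (j : ℕ) : ℕ := if j / 32 = 0 then 1024 else j % 32 + 32 * (32 - j / 32)

theorem iT_spec (j : ℕ) (_hj : j < 1024) (_h : iT j < 1024) : cellOf (iT j) = eT (cellOf j) := by
  unfold iT
  rw [cellOf_add _ _ (by omega)]
  rfl

theorem iX_spec (j : ℕ) (hj : j < 1024) (h : iX j < 1024) : cellOf (iX j) = eX (cellOf j) := by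
  unfold iX at h ⊢
  split at h
  · omega
  · rename_i h0
    rw [if_neg h0, cellOf_add _ _ (by omega)]
    unfold cellOf eX
    ext
    · simp only [Equiv.coe_fn_mk]
      omega
    · rfl

theorem iY_spec (j : ℕ) (hj : j < 1024) (h : iY j < 1024) : cellOf (iY j) = eY (cellOf j) := by
  unfold iY at h ⊢
  split at h
  · omega
  · rename_i h0
    rw [if_neg h0, cellOf_add _ _ (by omega)]
    unfold cellOf eY
    ext
    · rfl
    · simp only [Equiv.coe_fn_mk]
      omega

/-- Every cell of the mask `m` is mapped by the index map `gi` to a cell of the mask `m'`. -/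
def imgOK (gi : ℕ → ℕ) (m m' : ℕ) : Bool :=
  (List.range 1024).all (fun j => !m.testBit j || (Nat.blt (gi j) 1024 && m'.testBit (gi j)))

theorem good_img (e : (ℤ × ℤ) ≃ (ℤ × ℤ)) (gi : ℕ → ℕ) (hfix : e cA = cA) (hinv : ∀ d, e (e d) = d)
    (hcopy : ∀ W, IsCopy W → IsCopy (W.map e.toEmbedding))
    (hgi : ∀ j, j < 1024 → gi j < 1024 → cellOf (gi j) = e (cellOf j))
    {m m' : ℕ} (hg : Good m) (hok : imgOK gi m m' = true) : Good m' := by
  intro d hd hout
  have key : OutM m (e d) := by
    intro j hj hjd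
    by_contra hne
    have hbit : m.testBit j = true := eq_true_of_ne_false hne
    unfold imgOK at hok
    rw [List.all_eq_true] at hok
    have h1 := hok j (List.mem_range.2 hj)
    rw [hbit] at h1
    simp only [Bool.not_true, Bool.false_or, Bool.and_eq_true, Nat.blt_eq] at h1
    have h2 : cellOf (gi j) = d := by rw [hgi j hj h1.1, hjd, hinv]
    have h3 := hout (gi j) h1.1 h2
    rw [h1.2] at h3
    exact absurd h3 (by simp)
  have hne : e d ≠ cA := by
    intro h
    apply hd
    rw [← hinv d, h, hfix]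
  have hw := makerWins_map e hcopy (hg (e d) hne key)
  rw [Finset.map_singleton, Finset.map_singleton] at hw
  simp only [Equiv.coe_toEmbedding] at hw
  rw [hfix, hinv] at hw
  exact hw

theorem good_T {m m' : ℕ} (hg : Good m) (hok : imgOK iT m m' = true) : Good m' :=
  good_img eT iT rfl (fun _ => rfl) copy_T iT_spec hg hok

theorem good_X {m m' : ℕ} (hg : Good m) (hok : imgOK iX m m' = true) : Good m' :=
  good_img eX iX (by unfold eX cA; simp) (fun d => eX.left_inv d) copy_X iX_spec hg hok

theorem good_Y {m m' : ℕ} (hg : Good m) (hok : imgOK iY m m' = true) : Good m' :=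
  good_img eY iY (by unfold eY cA; simp) (fun d => eY.left_inv d) copy_Y iY_spec hg hok

theorem foldl_and_bit (l : List ℕ) : ∀ (acc j : ℕ), (l.foldl (fun x y => x &&& y) acc).testBit j = false →
    acc.testBit j = false ∨ ∃ m ∈ l, m.testBit j = false := by
  induction l with
  | nil => intro acc j h; exact Or.inl h
  | cons a l ih =>
    intro acc j h
    rw [List.foldl_cons] at h
    rcases ih (acc &&& a) j h with h1 | ⟨m, hm, hb⟩
    · rw [Nat.testBit_and] at h1
      cases hacc : acc.testBit j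
      · exact Or.inl rfl
      · rw [hacc, Bool.true_and] at h1
        exact Or.inr ⟨a, List.mem_cons_self, h1⟩
    · exact Or.inr ⟨m, List.mem_cons_of_mem _ hm, hb⟩

/-- If the masks of a nonempty list are all good and their intersection is contained in the mask `r`,
then Maker wins against every Breaker stone outside `r`. -/
theorem cover (ML : List ℕ) (m0 : ℕ) (hm0 : m0 ∈ ML) (hg : ∀ m ∈ ML, Good m) (r : ℕ)
    (hand : ML.foldl (fun x y => x &&& y) m0 = r) :
    ∀ d, d ≠ cA → OutM r d → MakerWins Set.univ {cA} {d} := by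
  intro d hd hr
  by_cases hwin : ∃ j, j < 1024 ∧ cellOf j = d
  · obtain ⟨j, hj, hjd⟩ := hwin
    have hrj := hr j hj hjd
    rw [← hand] at hrj
    rcases foldl_and_bit ML _ j hrj with h1 | ⟨m, hm, hb⟩
    · refine hg m0 hm0 d hd ?_
      intro j' _ hj'd
      have : j' = j := cellOf_inj (hj'd.trans hjd.symm)
      rw [this]
      exact h1
    · refine hg m hm d hd ?_
      intro j' _ hj'd
      have : j' = j := cellOf_inj (hj'd.trans hjd.symm)
      rw [this]
      exact hb
  · refine hg m0 hm0 d hd ?_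
    intro j hj hjd
    exact absurd ⟨j, hj, hjd⟩ hwin

end Vale.Agent.Lib.P062
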